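import Vale.Agent.P052.R2.H629.Defs8

open Finset

namespace Vale.Agent.P052.H629

theorem sum_sq_shift (s : Finset (Fin 9)) (f : Fin 9 → ℝ) (c : ℝ) :
    ∑ k ∈ s, (f k + c) ^ 2 = ∑ k ∈ s, f k ^ 2 + 2 * c * ∑ k ∈ s, f k + s.card * c ^ 2 := by
  have : ∀ k ∈ s, (f k + c) ^ 2 = f k ^ 2 + 2 * c * f k + c ^ 2 := fun k _ => by ring
  rw [sum_congr rfl this, sum_add_distrib, sum_add_distrib, mul_sum, sum_const, nsmul_eq_mul]

theorem sum_shift (s : Finset (Fin 9)) (f : Fin 9 → ℝ) (c : ℝ) :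
    ∑ k ∈ s, (f k + c) = ∑ k ∈ s, f k + s.card * c := by
  rw [sum_add_distrib, sum_const, nsmul_eq_mul]

theorem split3 {T : Finset (Fin 9)} {j : Fin 9} (hj : j ∈ T) (f : Fin 9 → ℝ) :
    ∑ k, f k = f j + ∑ l ∈ T.erase j, f l + ∑ k ∈ Tᶜ, f k := by
  rw [← sum_add_sum_compl T f, ← add_sum_erase T f hj]

/-- T3 (363): (L) -/
theorem L_ineq (S T : Finset (Fin 9)) (hS : S.card = 5) (hT : T.card = 5) (j : Fin 9)
    (hST : S ∩ T = {j}) (y : Fin 9 → ℝ) (hy : Pt y) (hyj : ∀ k, y k ≤ y j) :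
    ∑ k, |y k - xp T k| ≤ 10 * (2 - qd y (xp S)) := by
  have hjST : j ∈ S ∩ T := by rw [hST]; exact mem_singleton_self j
  have hjS : j ∈ S := (mem_inter.mp hjST).1
  have hjT : j ∈ T := (mem_inter.mp hjST).2
  have hcE : (T.erase j).card = 4 := by rw [card_erase_of_mem hjT, hT]
  have hcC : (Tᶜ).card = 4 := by rw [card_compl, hT, Fintype.card_fin]
  have hunion : S ∪ T = univ := by
    apply eq_univ_of_card
    have h := card_union_add_card_inter S T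
    rw [hST, card_singleton, hS, hT] at h
    rw [Fintype.card_fin]
    omega
  have hCS : ∀ k ∈ Tᶜ, k ∈ S := by
    intro k hk
    have h1 : k ∈ S ∪ T := by rw [hunion]; exact mem_univ k
    rcases mem_union.mp h1 with h | h
    · exact h
    · exact absurd h (mem_compl.mp hk)
  have hES : ∀ l ∈ T.erase j, l ∉ S := by
    intro l hl hlS
    have h1 : l ∈ S ∩ T := mem_inter.mpr ⟨hlS, mem_of_mem_erase hl⟩
    rw [hST, mem_singleton] at h1
    exact (ne_of_mem_erase hl) h1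
  -- the vector `v`
  obtain ⟨v, hv⟩ : ∃ v : Fin 9 → ℝ, ∀ k, v k = y k - xp T k := ⟨_, fun _ => rfl⟩
  have hvj : y j = v j + 1 / 3 := by rw [hv, xp, if_pos hjT]; ring
  have hvE : ∀ l ∈ T.erase j, y l = v l + 1 / 3 := by
    intro l hl
    rw [hv, xp, if_pos (mem_of_mem_erase hl)]; ring
  have hvC : ∀ k ∈ Tᶜ, y k = v k + -(1 / 6) := by
    intro k hk
    rw [hv, xp, if_neg (mem_compl.mp hk)]; ring
  obtain ⟨A, hA⟩ : ∃ A, A = ∑ l ∈ T.erase j, v l := ⟨_, rfl⟩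
  obtain ⟨B, hB⟩ : ∃ B, B = ∑ k ∈ Tᶜ, v k := ⟨_, rfl⟩
  obtain ⟨A2, hA2⟩ : ∃ A2, A2 = ∑ l ∈ T.erase j, v l ^ 2 := ⟨_, rfl⟩
  obtain ⟨B2, hB2⟩ : ∃ B2, B2 = ∑ k ∈ Tᶜ, v k ^ 2 := ⟨_, rfl⟩
  -- the sum of the coordinates
  have e1 : v j + A + B = 0 := by
    have h := hy.1
    rw [split3 hjT, hvj, sum_congr rfl hvE, sum_congr rfl hvC, sum_shift, sum_shift, hcE, hcC,
      ← hA, ← hB] at h
    push_cast at h
    linarith
  have e2 : ∑ k, y k ^ 2 = (v j ^ 2 + A2 + B2) - B + 2 / 3 := by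
    have hE : ∀ l ∈ T.erase j, y l ^ 2 = (v l + 1 / 3) ^ 2 := fun l hl => by rw [hvE l hl]
    have hC : ∀ k ∈ Tᶜ, y k ^ 2 = (v k + -(1 / 6)) ^ 2 := fun k hk => by rw [hvC k hk]
    rw [split3 hjT, hvj, sum_congr rfl hE, sum_congr rfl hC, sum_sq_shift, sum_sq_shift, hcE, hcC,
      ← hA, ← hB, ← hA2, ← hB2]
    push_cast
    linear_combination (2 / 3) * e1
  obtain ⟨n2, hn2⟩ : ∃ n2, n2 = v j ^ 2 + A2 + B2 := ⟨_, rfl⟩
  have hn0 : 0 ≤ n2 := by
    rw [hn2, hA2, hB2]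
    positivity
  rw [← hn2] at e2
  have hh : ∀ k ∈ Tᶜ, 0 ≤ v k - (n2 - B) / 2 := by
    intro k hk
    have h := hy.2 k
    rw [e2, hvC k hk] at h
    linarith
  have hg : ∀ l ∈ T.erase j, 0 ≤ v j - v l := by
    intro l hl
    have h := hyj l
    rw [hvE l hl, hvj] at h
    linarith
  have hH : 0 ≤ 3 * B - 2 * n2 := by
    have h := sum_nonneg hh
    rw [sum_sub_distrib, sum_const, hcC, ← hB, nsmul_eq_mul] at h
    push_cast at h
    linarith
  have hG : 0 ≤ -5 * A - 4 * B := by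
    have h := sum_nonneg hg
    rw [sum_sub_distrib, sum_const, hcE, ← hA, nsmul_eq_mul] at h
    push_cast at h
    linarith
  -- the distance to `xp S`
  have e3 : qd y (xp S) = n2 + A - B + 2 := by
    have hE : ∀ l ∈ T.erase j, (y l - xp S l) ^ 2 = (v l + 1 / 2) ^ 2 := by
      intro l hl
      rw [hvE l hl, xp, if_neg (hES l hl)]; ring
    have hC : ∀ k ∈ Tᶜ, (y k - xp S k) ^ 2 = (v k + -(1 / 2)) ^ 2 := by
      intro k hk
      rw [hvC k hk, xp, if_pos (hCS k hk)]; ring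
    have hJ : (y j - xp S j) ^ 2 = v j ^ 2 := by
      rw [hvj, xp, if_pos hjS]; ring
    rw [qd, split3 hjT, hJ, sum_congr rfl hE, sum_congr rfl hC, sum_sq_shift, sum_sq_shift, hcE,
      hcC, ← hA, ← hB, ← hA2, ← hB2, hn2]
    push_cast
    ring
  -- the absolute values
  have a1 : ∀ k ∈ Tᶜ, |v k| ≤ v k + (-((n2 - B) / 2) + (3 * B - 2 * n2 + n2) / 6) := by
    intro k hk
    have h := hh k hk
    rw [abs_le]
    constructor <;> linarith
  have a2 : ∀ l ∈ T.erase j, |v l| ≤ -(v l) + (|v j| + v j) := by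
    intro l hl
    have h := hg l hl
    have h1 := neg_abs_le (v j)
    have h2 := le_abs_self (v j)
    rw [abs_le]
    constructor <;> linarith
  have a3 : 5 * |v j| ≤ (-5 * A - 4 * B) + B := by
    have h1 : v j = -A - B := by linarith
    have h2 : |v j| ≤ ((-5 * A - 4 * B) + B) / 5 := by
      rw [abs_le]
      constructor <;> linarith
    linarith
  have a4 : ∑ k ∈ Tᶜ, |v k| ≤ B + 4 * (-((n2 - B) / 2) + (3 * B - 2 * n2 + n2) / 6) := by
    have h := sum_le_sum a1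
    rw [sum_shift, hcC, ← hB] at h
    push_cast at h
    linarith
  have a5 : ∑ l ∈ T.erase j, |v l| ≤ -A + 4 * (|v j| + v j) := by
    have h := sum_le_sum a2
    rw [sum_shift (T.erase j) (fun l => -(v l)), hcE, sum_neg_distrib, ← hA] at h
    push_cast at h
    linarith
  have a6 : ∑ k, |y k - xp T k| = |v j| + ∑ l ∈ T.erase j, |v l| + ∑ k ∈ Tᶜ, |v k| := by
    rw [← split3 hjT (fun k => |v k|)]
    exact sum_congr rfl fun k _ => by rw [hv]
  rw [a6, e3]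
  linarith

end Vale.Agent.P052.H629
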