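import Vale.Agent.P052.R2.H629.Pair
import Vale.Agent.P052.R2.H629.LIneq

/-!
# The nine pieces in coordinates (P052, helper629)
-/

namespace Vale.Agent.P052.H629

open Finset

/-- the tie break: the cell to which an exceptional point is given -/
def Tie (S : Finset (Fin 9)) (j : Fin 9) : Prop :=
  j ∈ S ∧ (0 ∈ S → 1 ∈ S → j = 0) ∧ (0 ∈ S → 1 ∉ S → j ≠ 0) ∧ (0 ∉ S → 1 ∈ S → j = 1)

theorem exists_tie (S : Finset (Fin 9)) (hS : S.card = 5) : ∃ j, Tie S j := by
  by_cases h0 : (0 : Fin 9) ∈ S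
  · by_cases h1 : (1 : Fin 9) ∈ S
    · exact ⟨0, h0, fun _ _ => rfl, fun _ h => absurd h1 h, fun h => absurd h0 h⟩
    · obtain ⟨j, hj, hj0⟩ := Finset.exists_mem_ne (s := S) (by omega) 0
      exact ⟨j, hj, fun _ h => absurd h h1, fun _ _ => hj0, fun h => absurd h0 h⟩
  · by_cases h1 : (1 : Fin 9) ∈ S
    · exact ⟨1, h1, fun h => absurd h h0, fun h => absurd h h0, fun _ _ => rfl⟩
    · have hpos : 0 < S.card := by omega
      obtain ⟨j, hj⟩ := Finset.card_pos.1 hpos
      exact ⟨j, hj, fun h => absurd h h0, fun h => absurd h h0, fun _ h => absurd h h1⟩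

theorem mem_or_mem {S T : Finset (Fin 9)} (hS : S.card = 5) (hT : T.card = 5) {j : Fin 9}
    (hST : S ∩ T = {j}) (k : Fin 9) : k ∈ S ∨ k ∈ T := by
  have h := Finset.card_union_add_card_inter S T
  rw [hST, hS, hT, Finset.card_singleton] at h
  have hu : S ∪ T = univ := by
    apply Finset.eq_univ_of_card
    simp
    omega
  have := Finset.mem_univ k
  rw [← hu] at this
  exact Finset.mem_union.1 this

theorem tie_excl {S T : Finset (Fin 9)} (hS : S.card = 5) (hT : T.card = 5) {j : Fin 9}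
    (hST : S ∩ T = {j}) (h1 : Tie S j) (h2 : Tie T j) : False := by
  have hU := mem_or_mem hS hT hST
  have hI : ∀ k, k ∈ S → k ∈ T → k = j := by
    intro k a b
    have : k ∈ S ∩ T := Finset.mem_inter.2 ⟨a, b⟩
    rw [hST] at this
    exact Finset.mem_singleton.1 this
  obtain ⟨a1, a2, a3, a4⟩ := h1
  obtain ⟨b1, b2, b3, b4⟩ := h2
  have h01 : (0 : Fin 9) ≠ 1 := by decide
  by_cases s0 : (0 : Fin 9) ∈ S
  · by_cases s1 : (1 : Fin 9) ∈ S
    · have e := a2 s0 s1
      rw [e] at b1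
      by_cases t1 : (1 : Fin 9) ∈ T
      · exact h01 (e.symm.trans (hI 1 s1 t1).symm)
      · exact b3 b1 t1 e
    · have t1 := (hU 1).resolve_left s1
      have e := a3 s0 s1
      by_cases t0 : (0 : Fin 9) ∈ T
      · exact e (hI 0 s0 t0).symm
      · have e' := b4 t0 t1
        rw [e'] at a1
        exact s1 a1
  · have t0 := (hU 0).resolve_left s0
    by_cases t1 : (1 : Fin 9) ∈ T
    · have e := b2 t0 t1
      rw [e] at a1
      exact s0 a1
    · have s1 := (hU 1).resolve_right t1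
      have e := a4 s0 s1
      rw [e] at b1
      exact t1 b1

theorem qd_comm (y z : Fin 9 → ℝ) : qd y z = qd z y := by
  unfold qd
  exact Finset.sum_congr rfl (fun j _ => by ring)

theorem qd_xp {S T : Finset (Fin 9)} (hS : S.card = 5) (hT : T.card = 5) :
    qd (xp S) (xp T) = 5 / 2 - ((S ∩ T).card : ℝ) / 2 := by
  have : ∀ j ∈ (univ : Finset (Fin 9)), (xp S j - xp T j) ^ 2
      = (if j ∈ S then (1 / 4 : ℝ) else 0) + (if j ∈ T then (1 / 4 : ℝ) else 0)
        - (if j ∈ S ∩ T then (1 / 2 : ℝ) else 0) := by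
    intro j _
    unfold xp
    by_cases h1 : j ∈ S <;> by_cases h2 : j ∈ T <;> simp [h1, h2] <;> norm_num
  unfold qd
  rw [Finset.sum_congr rfl this, Finset.sum_sub_distrib, Finset.sum_add_distrib,
    Finset.sum_ite_mem, Finset.sum_ite_mem, Finset.sum_ite_mem]
  simp only [univ_inter, sum_const, nsmul_eq_mul, hS, hT]
  push_cast
  ring

theorem qd_ident (y z s t : Fin 9 → ℝ) :
    qd y z = qd y t + qd z s - qd s t - 2 * ∑ j, (y j - s j) * (z j - t j) := by
  unfold qd
  rw [Finset.mul_sum, ← Finset.sum_add_distrib, ← Finset.sum_sub_distrib,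
    ← Finset.sum_sub_distrib]
  exact Finset.sum_congr rfl (fun j _ => by ring)

theorem dist_le_l1 (z w : Fin 9 → ℝ) : dist z w ≤ ∑ k, |z k - w k| := by
  rw [dist_pi_le_iff (Finset.sum_nonneg (fun k _ => abs_nonneg _))]
  intro k
  rw [Real.dist_eq]
  exact Finset.single_le_sum (f := fun k => |z k - w k|) (fun k _ => abs_nonneg _) (mem_univ k)

theorem abs_le_dist (z w : Fin 9 → ℝ) (k : Fin 9) : |z k - w k| ≤ dist z w := by
  rw [← Real.dist_eq]
  exact dist_le_pi_dist z w k

theorem exists_delta (K : Set (Fin 9 → ℝ)) (hK : IsClosed K) :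
    ∃ δ > 0, ∀ T : Finset (Fin 9), xp T ∉ K → ∀ z ∈ K, δ ≤ dist z (xp T) := by
  have h : ∀ T : Finset (Fin 9), ∃ e > 0, xp T ∉ K → ∀ z ∈ K, e ≤ dist z (xp T) := by
    intro T
    by_cases hT : xp T ∈ K
    · exact ⟨1, one_pos, fun h => absurd hT h⟩
    · obtain ⟨e, he, hb⟩ := Metric.isOpen_iff.1 hK.isOpen_compl (xp T) hT
      refine ⟨e, he, fun _ z hz => ?_⟩
      by_contra hcon
      exact hb (Metric.mem_ball.2 (not_le.1 hcon)) hz
  choose e he h using h
  obtain ⟨T0, hT0⟩ := Finite.exists_min e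
  exact ⟨e T0, he T0, fun T hT z hz => (hT0 T).trans (h T hT z hz)⟩

theorem qd_le_of_near {y z s : Fin 9 → ℝ} {r : ℝ} (hr0 : 0 ≤ r) (hr1 : r ≤ 1)
    (hy : dist y s ≤ r) (hz : qd z s ≤ 2) : qd y z ≤ qd z s + 45 * r := by
  have hzk : ∀ k, |z k - s k| ≤ 2 := by
    intro k
    have h1 : (z k - s k) ^ 2 ≤ qd z s :=
      Finset.single_le_sum (f := fun k => (z k - s k) ^ 2) (fun k _ => sq_nonneg _) (mem_univ k)
    apply abs_le_of_sq_le_sq _ (by norm_num)
    linarith
  have h2 : ∀ k ∈ (univ : Finset (Fin 9)), (y k - z k) ^ 2 ≤ (z k - s k) ^ 2 + 5 * r := by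
    intro k _
    have h3 := (abs_le_dist y s k).trans hy
    have h4 := hzk k
    have e : (y k - z k) ^ 2 = (z k - s k) ^ 2 - 2 * ((y k - s k) * (z k - s k))
      + (y k - s k) ^ 2 := by ring
    have h5 : -((y k - s k) * (z k - s k)) ≤ r * 2 := by
      calc -((y k - s k) * (z k - s k)) ≤ |(y k - s k) * (z k - s k)| := neg_le_abs _
        _ = |y k - s k| * |z k - s k| := abs_mul _ _
        _ ≤ r * 2 := mul_le_mul h3 h4 (abs_nonneg _) hr0
    have h6 : (y k - s k) ^ 2 ≤ r := by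
      have : (y k - s k) ^ 2 = |y k - s k| * |y k - s k| := by
        rw [abs_mul_abs_self]; ring
      rw [this]
      calc |y k - s k| * |y k - s k| ≤ r * 1 :=
            mul_le_mul h3 (h3.trans hr1) (abs_nonneg _) hr0
        _ = r := mul_one r
    rw [e]
    linarith
  have h7 := Finset.sum_le_sum h2
  rw [Finset.sum_add_distrib] at h7
  unfold qd
  simp only [sum_const, card_univ, Fintype.card_fin, nsmul_eq_mul] at h7
  push_cast at h7
  linarith

theorem ball_cell (K : Set (Fin 9 → ℝ)) (h1 : ∀ y ∈ K, Pt y)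
    (h2 : ∀ y ∈ K, ∀ z ∈ K, qd y z ≤ 2) (δ r : ℝ)
    (hδK : ∀ T : Finset (Fin 9), xp T ∉ K → ∀ z ∈ K, δ ≤ dist z (xp T))
    (hr : 0 < r) (hr1 : r ≤ 1 / 100) (hr2 : r ≤ δ / 1000) (f : Finset (Fin 9) → Fin 9)
    (hf : ∀ S, S.card = 5 → Tie S (f S)) (i : Fin 9) (S : Finset (Fin 9)) (hS : S.card = 5)
    (hfS : f S = i) (y z : Fin 9 → ℝ) (hy : y ∈ K) (hyS : dist y (xp S) ≤ r) (hz : z ∈ K)
    (hzi : ∀ k, z k ≤ z i)
    (hzT : ∀ T : Finset (Fin 9), T.card = 5 → xp T ∈ K → f T ≠ i → r ≤ dist z (xp T)) :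
    qd y z < 2 := by
  have hiS : i ∈ S := by
    have := (hf S hS).1
    rwa [hfS] at this
  set T : Finset (Fin 9) := insert i Sᶜ with hTdef
  have hT : T.card = 5 := by
    rw [hTdef, Finset.card_insert_of_notMem (by simp [hiS]), Finset.card_compl, hS]
    simp
  have hST : S ∩ T = {i} := by
    ext k
    simp only [hTdef, mem_inter, mem_insert, mem_compl, mem_singleton]
    constructor
    · rintro ⟨a, b | b⟩
      · exact b
      · exact absurd a b
    · rintro rfl
      exact ⟨hiS, Or.inl rfl⟩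
  have hL := L_ineq S T hS hT i hST z (h1 z hz) hzi
  have hn1 := dist_le_l1 z (xp T)
  by_cases hTK : xp T ∈ K
  · have hfT : f T ≠ i := by
      intro hcon
      have a := hf S hS
      have b := hf T hT
      rw [hfS] at a
      rw [hcon] at b
      exact tie_excl hS hT hST a b
    have hr' := hzT T hT hTK hfT
    have e := qd_ident y z (xp S) (xp T)
    have e1 := h2 y hy (xp T) hTK
    have e2 : qd (xp S) (xp T) = 2 := by
      rw [qd_xp hS hT, hST]
      simp
      norm_num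
    have e3 : -∑ j, (y j - xp S j) * (z j - xp T j) ≤ r * ∑ k, |z k - xp T k| := by
      rw [← Finset.sum_neg_distrib, Finset.mul_sum]
      apply Finset.sum_le_sum
      intro k _
      calc -((y k - xp S k) * (z k - xp T k)) ≤ |(y k - xp S k) * (z k - xp T k)| := neg_le_abs _
        _ = |y k - xp S k| * |z k - xp T k| := abs_mul _ _
        _ ≤ r * |z k - xp T k| :=
          mul_le_mul_of_nonneg_right ((abs_le_dist y _ k).trans hyS) (abs_nonneg _)
    have hpos : 0 < ∑ k, |z k - xp T k| := by linarith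
    have e4 : r * ∑ k, |z k - xp T k| ≤ 1 / 100 * ∑ k, |z k - xp T k| :=
      mul_le_mul_of_nonneg_right hr1 hpos.le
    linarith
  · have hd := hδK T hTK z hz
    have e1 : qd z (xp S) ≤ 2 := by linarith
    have e2 := qd_le_of_near hr.le (by linarith) hyS e1
    linarith

theorem ball_ball (r : ℝ) (hr : 0 < r) (hr1 : r ≤ 1 / 100) (i : Fin 9) (S T : Finset (Fin 9))
    (hS : S.card = 5) (hT : T.card = 5) (hfS : Tie S i) (hfT : Tie T i) (y z : Fin 9 → ℝ)
    (hyS : dist y (xp S) ≤ r) (hzT : dist z (xp T) ≤ r) : qd y z < 2 := by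
  have hi : i ∈ S ∩ T := Finset.mem_inter.2 ⟨hfS.1, hfT.1⟩
  have hc : 2 ≤ (S ∩ T).card := by
    by_contra hcon
    have h1 : (S ∩ T).card = 1 := by
      have := Finset.card_pos.2 ⟨i, hi⟩
      omega
    obtain ⟨a, ha⟩ := Finset.card_eq_one.1 h1
    rw [ha] at hi
    rw [← Finset.mem_singleton.1 hi] at ha
    exact tie_excl hS hT ha hfS hfT
  have hc' : (2 : ℝ) ≤ ((S ∩ T).card : ℝ) := by exact_mod_cast hc
  have e1 : qd (xp S) (xp T) ≤ 3 / 2 := by
    rw [qd_xp hS hT]
    linarith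
  have h2 : ∀ k ∈ (univ : Finset (Fin 9)),
      (y k - z k) ^ 2 ≤ (xp S k - xp T k) ^ 2 + 3 * r := by
    intro k _
    have h3 := (abs_le_dist y (xp S) k).trans hyS
    have h4 := (abs_le_dist z (xp T) k).trans hzT
    have h5 : |xp S k - xp T k| ≤ 1 / 2 := by
      unfold xp
      split_ifs <;> norm_num [abs_le]
    rw [abs_le] at h3 h4 h5
    have e : (y k - z k) ^ 2 = (xp S k - xp T k) ^ 2
      + 2 * ((xp S k - xp T k) * ((y k - xp S k) - (z k - xp T k)))
      + ((y k - xp S k) - (z k - xp T k)) ^ 2 := by ring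
    have h6 : |(y k - xp S k) - (z k - xp T k)| ≤ 2 * r := by
      rw [abs_le]; constructor <;> linarith
    have h7 : (xp S k - xp T k) * ((y k - xp S k) - (z k - xp T k)) ≤ 1 / 2 * (2 * r) := by
      calc _ ≤ |(xp S k - xp T k) * ((y k - xp S k) - (z k - xp T k))| := le_abs_self _
        _ = |xp S k - xp T k| * |(y k - xp S k) - (z k - xp T k)| := abs_mul _ _
        _ ≤ 1 / 2 * (2 * r) :=
          mul_le_mul (abs_le.2 h5) h6 (abs_nonneg _) (by norm_num)
    have h8 : ((y k - xp S k) - (z k - xp T k)) ^ 2 ≤ (2 * r) * (1 / 50) := by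
      have : ((y k - xp S k) - (z k - xp T k)) ^ 2
          = |(y k - xp S k) - (z k - xp T k)| * |(y k - xp S k) - (z k - xp T k)| := by
        rw [abs_mul_abs_self]; ring
      rw [this]
      exact mul_le_mul h6 (h6.trans (by linarith)) (abs_nonneg _) (by positivity)
    rw [e]
    linarith
  have h7 := Finset.sum_le_sum h2
  rw [Finset.sum_add_distrib] at h7
  unfold qd at *
  simp only [sum_const, card_univ, Fintype.card_fin, nsmul_eq_mul] at h7
  push_cast at h7
  linarith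

theorem core (K : Set (Fin 9 → ℝ)) (hK : IsCompact K) (h1 : ∀ y ∈ K, Pt y)
    (h2 : ∀ y ∈ K, ∀ z ∈ K, qd y z ≤ 2) :
    ∃ P : Fin 9 → Set (Fin 9 → ℝ), (∀ i, IsClosed (P i)) ∧ K ⊆ ⋃ i, P i ∧
      ∀ i, ∀ y ∈ P i ∩ K, ∀ z ∈ P i ∩ K, qd y z < 2 := by
  obtain ⟨δ, hδ, hδK⟩ := exists_delta K hK.isClosed
  have hf : ∃ f : Finset (Fin 9) → Fin 9, ∀ S, S.card = 5 → Tie S (f S) := by
    have : ∀ S : Finset (Fin 9), ∃ j, S.card = 5 → Tie S j := by
      intro S
      by_cases hS : S.card = 5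
      · obtain ⟨j, hj⟩ := exists_tie S hS
        exact ⟨j, fun _ => hj⟩
      · exact ⟨0, fun h => absurd h hS⟩
    choose f hf using this
    exact ⟨f, hf⟩
  obtain ⟨f, hf⟩ := hf
  set r : ℝ := min (1 / 100) (δ / 1000) with hrdef
  have hr : 0 < r := lt_min (by norm_num) (by positivity)
  have hr1 : r ≤ 1 / 100 := min_le_left _ _
  have hr2 : r ≤ δ / 1000 := min_le_right _ _
  refine ⟨fun i => {y | (∀ k, y k ≤ y i) ∧ ∀ S : Finset (Fin 9), S.card = 5 → xp S ∈ K →
      f S ≠ i → r ≤ dist y (xp S)} ∪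
      ⋃ S ∈ {S : Finset (Fin 9) | S.card = 5 ∧ xp S ∈ K ∧ f S = i},
        Metric.closedBall (xp S) r, ?_, ?_, ?_⟩
  · intro i
    apply IsClosed.union
    · have e : {y : Fin 9 → ℝ | (∀ k, y k ≤ y i) ∧ ∀ S : Finset (Fin 9), S.card = 5 →
          xp S ∈ K → f S ≠ i → r ≤ dist y (xp S)}
          = (⋂ k, {y : Fin 9 → ℝ | y k ≤ y i}) ∩
            ⋂ S : Finset (Fin 9), ⋂ _ : S.card = 5, ⋂ _ : xp S ∈ K, ⋂ _ : f S ≠ i,
              {y : Fin 9 → ℝ | r ≤ dist y (xp S)} := by
        ext y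
        simp only [Set.mem_ofPred_eq, Set.mem_inter_iff, Set.mem_iInter]
      rw [e]
      apply IsClosed.inter
      · exact isClosed_iInter (fun k => isClosed_le (continuous_apply k) (continuous_apply i))
      · exact isClosed_iInter (fun S => isClosed_iInter (fun _ => isClosed_iInter (fun _ =>
          isClosed_iInter (fun _ => isClosed_le continuous_const
            (continuous_id.dist continuous_const)))))
    · exact Set.Finite.isClosed_biUnion (Set.toFinite _) (fun S _ => Metric.isClosed_closedBall)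
  · intro y hy
    rw [Set.mem_iUnion]
    by_cases hex : ∃ S : Finset (Fin 9), S.card = 5 ∧ xp S ∈ K ∧ dist y (xp S) < r
    · obtain ⟨S, hS, hSK, hyS⟩ := hex
      refine ⟨f S, Or.inr ?_⟩
      rw [Set.mem_iUnion₂]
      exact ⟨S, ⟨hS, hSK, rfl⟩, Metric.mem_closedBall.2 hyS.le⟩
    · obtain ⟨i, hi⟩ := Finite.exists_max y
      refine ⟨i, Or.inl ⟨hi, fun S hS hSK _ => ?_⟩⟩
      by_contra hcon
      exact hex ⟨S, hS, hSK, not_le.1 hcon⟩
  · intro i y hy z hz
    obtain ⟨hyP, hyK⟩ := hy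
    obtain ⟨hzP, hzK⟩ := hz
    rcases hyP with hyA | hyB
    · rcases hzP with hzA | hzB
      · by_contra hcon
        obtain ⟨S, T, hS, hT, hST, rfl, rfl⟩ := pair_eq y z (h1 y hyK) (h1 z hzK) i hyA.1 hzA.1
          (not_lt.1 hcon)
        have hfS : f S = i := by
          by_contra h
          have := hyA.2 S hS hyK h
          rw [dist_self] at this
          linarith
        have hfT : f T = i := by
          by_contra h
          have := hzA.2 T hT hzK h
          rw [dist_self] at this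
          linarith
        have a := hf S hS
        have b := hf T hT
        rw [hfS] at a
        rw [hfT] at b
        exact tie_excl hS hT hST a b
      · rw [Set.mem_iUnion₂] at hzB
        obtain ⟨S, ⟨hS, hSK, hfS⟩, hzS⟩ := hzB
        rw [qd_comm]
        exact ball_cell K h1 h2 δ r hδK hr hr1 hr2 f hf i S hS hfS z y hzK
          (Metric.mem_closedBall.1 hzS) hyK hyA.1 hyA.2
    · rw [Set.mem_iUnion₂] at hyB
      obtain ⟨S, ⟨hS, hSK, hfS⟩, hyS⟩ := hyB
      rcases hzP with hzA | hzB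
      · exact ball_cell K h1 h2 δ r hδK hr hr1 hr2 f hf i S hS hfS y z hyK
          (Metric.mem_closedBall.1 hyS) hzK hzA.1 hzA.2
      · rw [Set.mem_iUnion₂] at hzB
        obtain ⟨T, ⟨hT, hTK, hfT⟩, hzT⟩ := hzB
        have a := hf S hS
        have b := hf T hT
        rw [hfS] at a
        rw [hfT] at b
        exact ball_ball r hr hr1 i S T hS hT a b y z (Metric.mem_closedBall.1 hyS)
          (Metric.mem_closedBall.1 hzT)

end Vale.Agent.P052.H629
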