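import Mathlib

/-!
# Coordinates for the eight-dimensional regular simplex (P052, helper629)

Barycentric coordinates with respect to a regular simplex with nine vertices, scaled so that
the squared distance of two points is `D ^ 2 / 2` times the sum `qd` of squared differences.
-/

namespace Vale.Agent.P052.H629

/-- the sum of squared coordinate differences -/
def qd (y z : Fin 9 → ℝ) : ℝ := ∑ j, (y j - z j) ^ 2

/-- barycentric coordinates of a point at distance at most the edge from all nine vertices -/
def Pt (y : Fin 9 → ℝ) : Prop := ∑ j, y j = 1 ∧ ∀ i, ∑ j, y j ^ 2 ≤ 1 + 2 * y i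

/-- the exceptional points -/
noncomputable def xp (S : Finset (Fin 9)) : Fin 9 → ℝ := fun j => if j ∈ S then 1 / 3 else -(1 / 6)

end Vale.Agent.P052.H629
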