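import Vale.Agent.P052.Defs
import Vale.Agent.P052.R2.H629.Core
import Vale.Agent.P052.R2.H958.Eight

/-!
# Dimension eight: sets inside the Reuleaux body of a regular simplex (P052, helper629)

The nine vertices `t a` need not belong to `X`; the points of `X` are at distance at most the
diameter from all of them.
-/

namespace Vale.Agent.P052.H629

theorem eight (X : Set (EuclideanSpace ℝ (Fin 8))) (hX : Bornology.IsBounded X)
    (hD : 0 < Metric.diam X) (t : Fin 9 → EuclideanSpace ℝ (Fin 8))
    (hx : ∀ x ∈ X, ∀ a, dist x (t a) ≤ Metric.diam X)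
    (hd : ∀ a b, a ≠ b → dist (t a) (t b) = Metric.diam X) :
    IsSmallerCover X 9 :=
  Vale.Agent.P052.R2.H958.eight_of_core core X hX hD t hx hd

end Vale.Agent.P052.H629
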