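import Vale.Agent.P052.Defs
import Mathlib

/-!
# From an exact simplex to almost regular simplices (P052, helper629)

If every bounded set whose points are at distance at most the diameter from `m` points at mutual
distance the diameter is a union of `k` sets of smaller diameter, then the same holds for almost
regular simplices: an ultralimit of counterexamples would be a counterexample.
-/

namespace Vale.Agent.P052.H629

open Filter Topology Metric

variable {d : ℕ}

theorem exists_lim (U : Ultrafilter ℕ) (f : ℕ → EuclideanSpace ℝ (Fin d)) (R : ℝ)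
    (hf : ∀ᶠ n in (U : Filter ℕ), f n ∈ closedBall (0 : EuclideanSpace ℝ (Fin d)) R) :
    ∃ x, Tendsto f (U : Filter ℕ) (𝓝 x) := by
  have hc : IsCompact (closedBall (0 : EuclideanSpace ℝ (Fin d)) R) := isCompact_closedBall _ _
  obtain ⟨x, -, hx⟩ := hc.ultrafilter_le_nhds (U.map f) (by
    rw [le_principal_iff]
    exact hf)
  exact ⟨x, hx⟩

theorem near_of_exact (m k : ℕ) (hm : 0 < m)
    (hex : ∀ X : Set (EuclideanSpace ℝ (Fin d)), Bornology.IsBounded X → 0 < diam X →
      ∀ t : Fin m → EuclideanSpace ℝ (Fin d), (∀ x ∈ X, ∀ a, dist x (t a) ≤ diam X) →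
      (∀ a b, a ≠ b → dist (t a) (t b) = diam X) → IsSmallerCover X k) :
    ∃ ε : ℝ, 0 < ε ∧ ∀ X : Set (EuclideanSpace ℝ (Fin d)), Bornology.IsBounded X → 0 < diam X →
      ∀ v : Fin m → EuclideanSpace ℝ (Fin d),
        (∀ a b, a ≠ b → (1 - ε) * diam X ≤ dist (v a) (v b)) →
        (∀ a b, dist (v a) (v b) ≤ (1 + ε) * diam X) →
        (∀ x ∈ X, ∀ a, dist x (v a) ≤ (1 + ε) * diam X) → IsSmallerCover X k := by
  by_contra hcon
  push Not at hcon
  have hcon' : ∀ n : ℕ, ∃ X : Set (EuclideanSpace ℝ (Fin d)), Bornology.IsBounded X ∧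
      0 < diam X ∧ ∃ v : Fin m → EuclideanSpace ℝ (Fin d),
        (∀ a b, a ≠ b → (1 - 1 / ((n : ℝ) + 1)) * diam X ≤ dist (v a) (v b)) ∧
        (∀ a b, dist (v a) (v b) ≤ (1 + 1 / ((n : ℝ) + 1)) * diam X) ∧
        (∀ x ∈ X, ∀ a, dist x (v a) ≤ (1 + 1 / ((n : ℝ) + 1)) * diam X) ∧
        ¬ IsSmallerCover X k := fun n => hcon (1 / ((n : ℝ) + 1)) (by positivity)
  choose X hXb hXd v hv1 hv2 hv3 hXk using hcon'
  set a0 : Fin m := ⟨0, hm⟩
  set φ : ℕ → EuclideanSpace ℝ (Fin d) → EuclideanSpace ℝ (Fin d) :=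
    fun n x => (diam (X n))⁻¹ • (x - v n a0) with hφ
  have hφd : ∀ n x y, dist (φ n x) (φ n y) = (diam (X n))⁻¹ * dist x y := by
    intro n x y
    simp only [hφ]
    rw [dist_smul₀, Real.norm_of_nonneg (inv_nonneg.2 (hXd n).le), dist_sub_right]
  set e : ℕ → ℝ := fun n => 1 / ((n : ℝ) + 1) with he
  have he0 : ∀ n, 0 < e n := fun n => by simp only [he]; positivity
  have he1 : ∀ n, e n ≤ 1 := by
    intro n
    simp only [he]
    rw [div_le_one (by positivity)]
    have : (0 : ℝ) ≤ n := Nat.cast_nonneg n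
    linarith
  have hlim : Tendsto e atTop (𝓝 0) := tendsto_one_div_add_atTop_nhds_zero_nat
  let U : Ultrafilter ℕ := hyperfilter ℕ
  have hU : (U : Filter ℕ) ≤ atTop := by
    have := Nat.hyperfilter_le_atTop
    exact this
  have hlimU : Tendsto e (U : Filter ℕ) (𝓝 0) := hlim.mono_left hU
  -- scaled distances
  have hs3 : ∀ n, ∀ x ∈ X n, ∀ a, dist (φ n x) (φ n (v n a)) ≤ 1 + e n := by
    intro n x hx a
    rw [hφd, inv_mul_le_iff₀ (hXd n), mul_comm]
    exact hv3 n x hx a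
  have hs2 : ∀ n a b, dist (φ n (v n a)) (φ n (v n b)) ≤ 1 + e n := by
    intro n a b
    rw [hφd, inv_mul_le_iff₀ (hXd n), mul_comm]
    exact hv2 n a b
  have hs1 : ∀ n a b, a ≠ b → 1 - e n ≤ dist (φ n (v n a)) (φ n (v n b)) := by
    intro n a b hab
    rw [hφd, le_inv_mul_iff₀ (hXd n), mul_comm]
    exact hv1 n a b hab
  have hs4 : ∀ n, ∀ x ∈ X n, ∀ y ∈ X n, dist (φ n x) (φ n y) ≤ 1 := by
    intro n x hx y hy
    rw [hφd, inv_mul_le_iff₀ (hXd n), mul_one]
    exact dist_le_diam_of_mem (hXb n) hx hy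
  have h0 : ∀ n, φ n (v n a0) = 0 := by
    intro n
    simp [hφ]
  have hball : ∀ n, ∀ x ∈ X n, φ n x ∈ closedBall (0 : EuclideanSpace ℝ (Fin d)) 2 := by
    intro n x hx
    have := hs3 n x hx a0
    rw [h0] at this
    exact mem_closedBall.2 (by linarith [he1 n])
  -- limit vertices
  have hw : ∀ a, ∃ w, Tendsto (fun n => φ n (v n a)) (U : Filter ℕ) (𝓝 w) := by
    intro a
    apply exists_lim U _ 2
    refine Eventually.of_forall (fun n => ?_)
    have := hs2 n a a0
    rw [h0] at this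
    exact mem_closedBall.2 (by linarith [he1 n])
  choose w hw using hw
  have hww : ∀ a b, a ≠ b → dist (w a) (w b) = 1 := by
    intro a b hab
    have ht : Tendsto (fun n => dist (φ n (v n a)) (φ n (v n b))) (U : Filter ℕ)
      (𝓝 (dist (w a) (w b))) := (hw a).dist (hw b)
    apply le_antisymm
    · have h1 : Tendsto (fun n => 1 + e n) (U : Filter ℕ) (𝓝 (1 + 0)) :=
        tendsto_const_nhds.add hlimU
      rw [add_zero] at h1
      exact le_of_tendsto_of_tendsto' ht h1 (fun n => hs2 n a b)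
    · have h1 : Tendsto (fun n => 1 - e n) (U : Filter ℕ) (𝓝 (1 - 0)) :=
        tendsto_const_nhds.sub hlimU
      rw [sub_zero] at h1
      exact le_of_tendsto_of_tendsto' h1 ht (fun n => hs1 n a b hab)
  -- the limit set
  set Y : Set (EuclideanSpace ℝ (Fin d)) :=
    {x | ∃ g : ℕ → EuclideanSpace ℝ (Fin d), (∀ n, g n ∈ X n) ∧
      Tendsto (fun n => φ n (g n)) (U : Filter ℕ) (𝓝 x)} with hY
  have hYlim : ∀ g : ℕ → EuclideanSpace ℝ (Fin d), (∀ n, g n ∈ X n) →
      ∃ x ∈ Y, Tendsto (fun n => φ n (g n)) (U : Filter ℕ) (𝓝 x) := by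
    intro g hg
    obtain ⟨x, hx⟩ := exists_lim U (fun n => φ n (g n)) 2
      (Eventually.of_forall (fun n => hball n _ (hg n)))
    exact ⟨x, ⟨g, hg, hx⟩, hx⟩
  have hYd : ∀ x ∈ Y, ∀ y ∈ Y, dist x y ≤ 1 := by
    rintro x ⟨g, hg, hgx⟩ y ⟨h, hh, hhy⟩
    exact le_of_tendsto' (hgx.dist hhy) (fun n => hs4 n _ (hg n) _ (hh n))
  have hYw : ∀ x ∈ Y, ∀ a, dist x (w a) ≤ 1 := by
    rintro x ⟨g, hg, hgx⟩ a
    have h1 : Tendsto (fun n => 1 + e n) (U : Filter ℕ) (𝓝 (1 + 0)) :=
      tendsto_const_nhds.add hlimU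
    rw [add_zero] at h1
    exact le_of_tendsto_of_tendsto' (hgx.dist (hw a)) h1 (fun n => hs3 n _ (hg n) a)
  have hYb : Bornology.IsBounded Y :=
    Metric.isBounded_iff.2 ⟨1, fun x hx y hy => hYd x hx y hy⟩
  have hYle : diam Y ≤ 1 := diam_le_of_forall_dist_le zero_le_one hYd
  -- nearly extremal pairs
  have hpair : ∀ n, ∃ p : EuclideanSpace ℝ (Fin d) × EuclideanSpace ℝ (Fin d),
      p.1 ∈ X n ∧ p.2 ∈ X n ∧ 1 - e n ≤ dist (φ n p.1) (φ n p.2) := by
    intro n
    by_contra hno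
    push Not at hno
    have hle : diam (X n) ≤ (1 - e n) * diam (X n) := by
      apply diam_le_of_forall_dist_le
      · exact mul_nonneg (by linarith [he1 n]) (hXd n).le
      · intro x hx y hy
        have := (hno (x, y) hx hy).le
        simp only at this
        rw [hφd, inv_mul_le_iff₀ (hXd n), mul_comm] at this
        exact this
    nlinarith [hXd n, he0 n, mul_pos (he0 n) (hXd n)]
  choose p hp1 hp2 hp3 using hpair
  have hYge : 1 ≤ diam Y := by
    obtain ⟨x, hxY, hx⟩ := hYlim (fun n => (p n).1) hp1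
    obtain ⟨y, hyY, hy⟩ := hYlim (fun n => (p n).2) hp2
    have h1 : Tendsto (fun n => 1 - e n) (U : Filter ℕ) (𝓝 (1 - 0)) :=
      tendsto_const_nhds.sub hlimU
    rw [sub_zero] at h1
    exact (le_of_tendsto_of_tendsto' h1 (hx.dist hy) hp3).trans
      (dist_le_diam_of_mem hYb hxY hyY)
  have hYD : diam Y = 1 := le_antisymm hYle hYge
  obtain ⟨P, hPU, hPd⟩ := hex Y hYb (by rw [hYD]; exact one_pos) w
    (by rw [hYD]; exact hYw) (by rw [hYD]; exact hww)
  rw [hYD] at hPd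
  -- margin
  have hmargin : ∃ η > 0, ∀ i, diam (P i) ≤ 1 - 3 * η := by
    rcases isEmpty_or_nonempty (Fin k) with hemp | hne
    · exact ⟨1, one_pos, fun i => (hemp.false i).elim⟩
    · obtain ⟨i0, hi0⟩ := Finite.exists_max (fun i => diam (P i))
      refine ⟨(1 - diam (P i0)) / 3, by linarith [hPd i0], fun i => ?_⟩
      linarith [hi0 i]
  obtain ⟨η, hη, hPη⟩ := hmargin
  have hPb : ∀ i, Bornology.IsBounded (P i) := fun i =>
    hYb.subset (by rw [← hPU]; exact Set.subset_iUnion P i)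
  -- eventually X n is close to Y
  have hnear : ∀ᶠ n in (U : Filter ℕ), ∀ x ∈ X n, ∃ y ∈ Y, dist (φ n x) y < η := by
    by_contra hno
    have hev : ∀ᶠ n in (U : Filter ℕ), ¬ ∀ x ∈ X n, ∃ y ∈ Y, dist (φ n x) y < η :=
      Ultrafilter.eventually_not.2 hno
    have hg : ∀ n, ∃ x ∈ X n, (¬ ∀ x ∈ X n, ∃ y ∈ Y, dist (φ n x) y < η) →
        ∀ y ∈ Y, η ≤ dist (φ n x) y := by
      intro n
      by_cases h : ∀ x ∈ X n, ∃ y ∈ Y, dist (φ n x) y < η
      · exact ⟨(p n).1, hp1 n, fun h' => absurd h h'⟩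
      · push Not at h
        obtain ⟨x, hx, hxy⟩ := h
        exact ⟨x, hx, fun _ => hxy⟩
    choose g hgX hgn using hg
    obtain ⟨x, hxY, hx⟩ := hYlim g hgX
    have h1 : ∀ᶠ n in (U : Filter ℕ), dist (φ n (g n)) x < η :=
      (Metric.tendsto_nhds.1 hx) η hη
    obtain ⟨n, hn1, hn2⟩ := (h1.and hev).exists
    exact absurd (hgn n hn2 x hxY) (not_le.2 hn1)
  obtain ⟨n, hn⟩ := hnear.exists
  apply hXk n
  refine ⟨fun i => {x | x ∈ X n ∧ ∃ y ∈ P i, dist (φ n x) y < η}, ?_, ?_⟩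
  · ext x
    simp only [Set.mem_iUnion, Set.mem_ofPred_eq]
    constructor
    · rintro ⟨i, hx, -⟩
      exact hx
    · intro hx
      obtain ⟨y, hyY, hy⟩ := hn x hx
      rw [← hPU, Set.mem_iUnion] at hyY
      obtain ⟨i, hi⟩ := hyY
      exact ⟨i, hx, y, hi, hy⟩
  · intro i
    have hle : diam {x | x ∈ X n ∧ ∃ y ∈ P i, dist (φ n x) y < η}
        ≤ (1 - η) * diam (X n) := by
      rcases Set.eq_empty_or_nonempty {x | x ∈ X n ∧ ∃ y ∈ P i, dist (φ n x) y < η} with h | h
      · rw [h, diam_empty]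
        have : 0 ≤ diam (P i) := diam_nonneg
        exact mul_nonneg (by linarith [hPη i]) (hXd n).le
      · apply diam_le_of_forall_dist_le
        · have : 0 ≤ diam (P i) := diam_nonneg
          exact mul_nonneg (by linarith [hPη i]) (hXd n).le
        · rintro x ⟨hx, y, hy, hxy⟩ x' ⟨hx', y', hy', hxy'⟩
          have h1 := dist_le_diam_of_mem (hPb i) hy hy'
          have h2 : dist (φ n x) (φ n x') ≤ dist (φ n x) y + dist y y' + dist y' (φ n x') :=
            dist_triangle4 _ _ _ _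
          rw [dist_comm y' _] at h2
          have h3 : dist (φ n x) (φ n x') ≤ 1 - η := by linarith [hPη i]
          rw [hφd, inv_mul_le_iff₀ (hXd n), mul_comm] at h3
          exact h3
    have := mul_pos hη (hXd n)
    linarith

end Vale.Agent.P052.H629
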