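import Vale.Agent.P052.R2.H629.EightMain
import Vale.Agent.P052.R2.H629.NearExact
import Vale.Agent.P052.R2.H958.Main

/-!
# Almost regular simplices in all dimensions at most eight (P052, helper629)
-/

namespace Vale.Agent.P052.H629

open Metric

/-- almost regular simplices, dimension at most `8` -/
theorem simplex_near_le_eight (d : ℕ) (hd : d ≤ 8) :
    ∃ ε : ℝ, 0 < ε ∧ ∀ X : Set (EuclideanSpace ℝ (Fin d)), Bornology.IsBounded X →
      0 < diam X → ∀ v : Fin (d + 1) → EuclideanSpace ℝ (Fin d),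
        (∀ a b, a ≠ b → (1 - ε) * diam X ≤ dist (v a) (v b)) →
        (∀ a b, dist (v a) (v b) ≤ (1 + ε) * diam X) →
        (∀ x ∈ X, ∀ a, dist x (v a) ≤ (1 + ε) * diam X) →
        ∃ P : Fin (d + 1) → Set (EuclideanSpace ℝ (Fin d)),
          (⋃ i, P i) = X ∧ ∀ i, diam (P i) < diam X := by
  rcases Nat.lt_or_ge 7 d with h | h
  · obtain rfl : d = 8 := le_antisymm hd h
    exact near_of_exact 9 9 (by norm_num) (fun X hX hD t hx ht => eight X hX hD t hx ht)
  · exact Vale.Agent.P052.R2.H958.simplex_near d h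

end Vale.Agent.P052.H629
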