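import Mathlib

/-!
# The scalar inequality for the eight-dimensional regular simplex (P052, helper629)
-/

namespace Vale.Agent.P052.H629

theorem le_of_mul_self_le {a b : ℝ} (ha : 0 ≤ a) (hb : 0 ≤ b) (h : a * a ≤ b * b) : a ≤ b :=
  (mul_self_le_mul_self_iff ha hb).2 h

theorem cauchy_aux {p q r t u v : ℝ} (hp : 0 ≤ p) (hq : 0 ≤ q) (hr : 0 ≤ r) (ht : 0 ≤ t)
    (hu0 : 0 ≤ u) (hv0 : 0 ≤ v) (hu : u * u = p * q) (hv : v * v = r * t) :
    2 * (u * v) ≤ p * t + q * r := by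
  apply le_of_mul_self_le (by positivity) (by positivity)
  have e : 2 * (u * v) * (2 * (u * v)) = 4 * (p * q) * (r * t) := by
    rw [← hu, ← hv]; ring
  rw [e]
  nlinarith [sq_nonneg (p * t - q * r)]

theorem poly_aux {s : ℝ} (hs : 1 ≤ s) (h : 0 ≤ 12 - 12 * s + 3 * s ^ 2 + 6 * s ^ 3 - 9 * s ^ 4) :
    s = 1 := by
  have e : 12 - 12 * s + 3 * s ^ 2 + 6 * s ^ 3 - 9 * s ^ 4
      = (1 - s) * (12 + 3 * s ^ 2 + 9 * s ^ 3) := by ring
  rw [e] at h
  have hpos : 0 < 12 + 3 * s ^ 2 + 9 * s ^ 3 := by positivity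
  have := nonneg_of_mul_nonneg_left h hpos
  linarith

theorem mono_aux {s2 d w : ℝ} (h : 32 * s2 ≤ 12 + 36 * d - 9 * d ^ 2) (hd : d ≤ w) (hw : w ≤ 2) :
    32 * s2 ≤ 12 + 36 * w - 9 * w ^ 2 := by
  nlinarith [mul_nonneg (sub_nonneg.2 hd) (sub_nonneg.2 hw),
    mul_nonneg (sub_nonneg.2 hd) (sub_nonneg.2 (hd.trans hw))]

theorem scalar_one {b c p q s G u v : ℝ} (hb1 : b ≤ 1) (hc1 : c ≤ 1) (hp : 0 ≤ p) (hq : 0 ≤ q)
    (hpb : p < b) (hqc : q < c) (h0 : b * c ≤ 9 * p * q)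
    (h1 : b + c ≤ 9 * (b - p) * (c - q))
    (h2 : 9 * (b + c - (p + q)) ^ 2 ≤ 12 + 4 * (b + c) - 36 * (p + q))
    (hs0 : 0 ≤ s) (hG0 : 0 ≤ G) (hu0 : 0 ≤ u) (hv0 : 0 ≤ v)
    (hs2 : s * s = b + c) (hG2 : G * G = b * c) (hu2 : u * u = p * q)
    (hv2 : v * v = (b - p) * (c - q)) :
    b = 1 / 2 ∧ c = 1 / 2 ∧ p = 1 / 6 ∧ q = 1 / 6 := by
  have hb : 0 < b := by linarith
  have hc : 0 < c := by linarith
  have hbp : 0 ≤ b - p := by linarith
  have hcq : 0 ≤ c - q := by linarith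
  have hGu : G ≤ 3 * u := by
    apply le_of_mul_self_le hG0 (by positivity)
    have : 3 * u * (3 * u) = 9 * (u * u) := by ring
    rw [this, hG2, hu2]; linarith
  have hsv : s ≤ 3 * v := by
    apply le_of_mul_self_le hs0 (by positivity)
    have : 3 * v * (3 * v) = 9 * (v * v) := by ring
    rw [this, hs2, hv2]; linarith
  have huv : u + v ≤ G := by
    apply le_of_mul_self_le (by positivity) hG0
    have hc := cauchy_aux hp hq hbp hcq hu0 hv0 hu2 hv2
    have e : (u + v) * (u + v) = u * u + v * v + 2 * (u * v) := by ring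
    rw [e, hu2, hv2, hG2]
    have e2 : p * q + (b - p) * (c - q) + (p * (c - q) + q * (b - p)) = b * c := by ring
    linarith
  have hsG : s ≤ 2 * G := by linarith
  have hGs : 2 * G ≤ s * s := by
    apply le_of_mul_self_le (by positivity) (by positivity)
    have e : 2 * G * (2 * G) = 4 * (b * c) := by rw [← hG2]; ring
    rw [e, hs2]
    nlinarith [sq_nonneg (b - c)]
  have hspos : 0 < s := by
    rcases hs0.lt_or_eq with h | h
    · exact h
    · exfalso; rw [← h] at hs2; linarith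
  have hs1 : 1 ≤ s := by
    have : s * 1 ≤ s * s := by linarith
    exact le_of_mul_le_mul_left this hspos
  have hpq2 : 2 * u ≤ p + q := by
    apply le_of_mul_self_le (by positivity) (by positivity)
    have e : 2 * u * (2 * u) = 4 * (p * q) := by rw [← hu2]; ring
    rw [e]
    nlinarith [sq_nonneg (p - q)]
  have hpqs : s / 3 ≤ p + q := by linarith
  have hs2' : s * s ≤ 2 := by linarith
  have hkey : 32 * (s * s) ≤ 12 + 36 * (s * s - s / 3) - 9 * (s * s - s / 3) ^ 2 := by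
    apply mono_aux (d := b + c - (p + q))
    · rw [hs2]; linarith
    · rw [hs2]; linarith
    · linarith
  have hs : s = 1 := by
    apply poly_aux hs1
    have e : 12 + 36 * (s * s - s / 3) - 9 * (s * s - s / 3) ^ 2 - 32 * (s * s)
      = 12 - 12 * s + 3 * s ^ 2 + 6 * s ^ 3 - 9 * s ^ 4 := by ring
    linarith
  rw [hs] at hs2 hsG hGs hpqs
  have hG : G = 1 / 2 := by linarith
  have hbc : b + c = 1 := by linarith
  have hbc2 : b * c = 1 / 4 := by rw [← hG2, hG]; norm_num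
  have hbe : b = 1 / 2 := by
    have : (b - 1 / 2) ^ 2 = 0 := by
      have hc' : c = 1 - b := by linarith
      rw [hc'] at hbc2
      linarith [show (b - 1 / 2) ^ 2 = 1 / 4 - b * (1 - b) by ring]
    have := pow_eq_zero_iff (two_ne_zero) |>.1 this
    linarith
  have hce : c = 1 / 2 := by linarith
  have hpq1 : p + q ≤ 1 / 3 := by
    rw [hbc] at h2
    by_contra hcon
    push Not at hcon
    have h3 : 1 - (p + q) < 2 / 3 := by linarith
    nlinarith [mul_pos (sub_pos.2 h3) (sub_pos.2 h3)]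
  have hpq3 : p + q = 1 / 3 := by linarith
  have hu6 : 1 / 6 ≤ u := by linarith
  have hpqm : 1 / 36 ≤ p * q := by
    rw [← hu2]; nlinarith
  have hpe : p = 1 / 6 := by
    have hq' : q = 1 / 3 - p := by linarith
    rw [hq'] at hpqm
    have : (p - 1 / 6) ^ 2 ≤ 0 := by
      linarith [show (p - 1 / 6) ^ 2 = 1 / 36 - p * (1 / 3 - p) by ring]
    have := pow_eq_zero_iff (two_ne_zero) |>.1 (le_antisymm this (sq_nonneg _))
    linarith
  exact ⟨hbe, hce, hpe, by linarith⟩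

theorem scalar_eq (b c p q : ℝ) (hb1 : b ≤ 1) (hc1 : c ≤ 1) (hp : 0 ≤ p) (hq : 0 ≤ q)
    (hpb : p < b) (hqc : q < c) (h0 : b * c ≤ 9 * p * q)
    (h1 : b + c ≤ 9 * (b - p) * (c - q))
    (h2 : 9 * (b + c - (p + q)) ^ 2 ≤ 12 + 4 * (b + c) - 36 * (p + q)) :
    b = 1 / 2 ∧ c = 1 / 2 ∧ p = 1 / 6 ∧ q = 1 / 6 :=
  scalar_one hb1 hc1 hp hq hpb hqc h0 h1 h2
    (Real.sqrt_nonneg (b + c)) (Real.sqrt_nonneg (b * c)) (Real.sqrt_nonneg (p * q))
    (Real.sqrt_nonneg ((b - p) * (c - q)))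
    (Real.mul_self_sqrt (by linarith))
    (Real.mul_self_sqrt (mul_nonneg (by linarith) (by linarith)))
    (Real.mul_self_sqrt (mul_nonneg hp hq))
    (Real.mul_self_sqrt (mul_nonneg (by linarith) (by linarith)))

end Vale.Agent.P052.H629
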