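import Vale.Agent.P052.R2.H629.Defs8
import Vale.Agent.P052.R2.H629.Scalar

/-!
# Two points of a common cell at the distance of the edge (P052, helper629)
-/

namespace Vale.Agent.P052.H629

open Finset

theorem shift_aux (y : Fin 9 → ℝ) (hy : Pt y) (i : Fin 9) :
    ∃ p : ℝ, 0 ≤ p ∧ (∀ k, 0 ≤ y k + p) ∧ ∑ j, y j ^ 2 ≤ 1 - 2 * p ∧ y i + p ≤ 1 := by
  obtain ⟨k0, hk0⟩ := Finite.exists_min y
  have hsq : y i ^ 2 ≤ ∑ j, y j ^ 2 :=
    Finset.single_le_sum (f := fun j => y j ^ 2) (fun j _ => sq_nonneg _) (mem_univ i)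
  rcases le_or_gt 0 (y k0) with h | h
  · have hnn : ∀ k, 0 ≤ y k := fun k => h.trans (hk0 k)
    have hle : ∀ k, y k ≤ 1 := by
      intro k
      have := Finset.single_le_sum (f := y) (fun j _ => hnn j) (mem_univ k)
      rw [hy.1] at this
      exact this
    refine ⟨0, le_rfl, fun k => by simpa using hnn k, ?_, by simpa using hle i⟩
    have : ∑ j, y j ^ 2 ≤ ∑ j, y j :=
      Finset.sum_le_sum (fun j _ => by nlinarith [hnn j, hle j])
    rw [hy.1] at this
    linarith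
  · refine ⟨-y k0, by linarith, fun k => by linarith [hk0 k], ?_, ?_⟩
    · linarith [hy.2 k0]
    · have h1 := hy.2 k0
      nlinarith [sq_nonneg (y i - 1)]

theorem pair_num (b c : Fin 9 → ℝ) (p q : ℝ) (i : Fin 9) (hb : ∀ k, 0 ≤ b k) (hc : ∀ k, 0 ≤ c k)
    (hbi : ∀ k, b k ≤ b i) (hci : ∀ k, c k ≤ c i) (hb1 : b i ≤ 1) (hc1 : c i ≤ 1)
    (hp : 0 ≤ p) (hq : 0 ≤ q) (Sb : ∑ j, b j = 1 + 9 * p) (Sc : ∑ j, c j = 1 + 9 * q)
    (Sb2 : ∑ j, b j ^ 2 ≤ 1 + 9 * p ^ 2) (Sc2 : ∑ j, c j ^ 2 ≤ 1 + 9 * q ^ 2)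
    (Sbc : ∑ j, b j * c j ≤ 9 * p * q) :
    p = 1 / 6 ∧ q = 1 / 6 ∧ b i = 1 / 2 ∧ c i = 1 / 2 ∧
      ∀ j, j ≠ i → b j + c j = 1 / 2 ∧ b j * c j = 0 := by
  have I0 : b i * c i ≤ ∑ j, b j * c j :=
    Finset.single_le_sum (f := fun j => b j * c j) (fun j _ => mul_nonneg (hb j) (hc j))
      (mem_univ i)
  have I1 : 0 ≤ ∑ j, (b i - b j) * (c i - c j) :=
    Finset.sum_nonneg (fun j _ => mul_nonneg (sub_nonneg.2 (hbi j)) (sub_nonneg.2 (hci j)))
  have E1 : ∑ j, (b i - b j) * (c i - c j)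
      = 9 * (b i * c i) - b i * ∑ j, c j - c i * ∑ j, b j + ∑ j, b j * c j := by
    have : ∀ j ∈ (univ : Finset (Fin 9)), (b i - b j) * (c i - c j)
        = b i * c i - b i * c j - c i * b j + b j * c j := fun j _ => by ring
    have s1 : ∑ j, b i * c j = b i * ∑ j, c j := (Finset.mul_sum _ _ _).symm
    have s2 : ∑ j, c i * b j = c i * ∑ j, b j := (Finset.mul_sum _ _ _).symm
    have s3 : ∑ _j : Fin 9, b i * c i = 9 * (b i * c i) := by simp
    rw [Finset.sum_congr rfl this, Finset.sum_add_distrib, Finset.sum_sub_distrib,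
      Finset.sum_sub_distrib, s1, s2, s3]
  have E2 : ∀ t : ℝ, ∑ j, (b j + c j - t) ^ 2
      = ∑ j, b j ^ 2 + ∑ j, c j ^ 2 + 2 * ∑ j, b j * c j
        - 2 * t * (∑ j, b j + ∑ j, c j) + 9 * t ^ 2 := by
    intro t
    have : ∀ j ∈ (univ : Finset (Fin 9)), (b j + c j - t) ^ 2
        = b j ^ 2 + c j ^ 2 + 2 * (b j * c j) - (2 * t * b j + 2 * t * c j) + t ^ 2 :=
      fun j _ => by ring
    rw [Finset.sum_congr rfl this, Finset.sum_add_distrib, Finset.sum_sub_distrib,
      Finset.sum_add_distrib, Finset.sum_add_distrib, Finset.sum_add_distrib, ← Finset.mul_sum,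
      ← Finset.mul_sum, ← Finset.mul_sum]
    simp
    ring
  have I2 : ∀ t : ℝ, (b i + c i - t) ^ 2 ≤ ∑ j, (b j + c j - t) ^ 2 := fun t =>
    Finset.single_le_sum (f := fun j => (b j + c j - t) ^ 2) (fun j _ => sq_nonneg _) (mem_univ i)
  have hbp : p < b i := by
    have : ∑ j, b j ≤ ∑ _j : Fin 9, b i := Finset.sum_le_sum (fun j _ => hbi j)
    rw [Sb] at this
    simp at this
    linarith
  have hcq : q < c i := by
    have : ∑ j, c j ≤ ∑ _j : Fin 9, c i := Finset.sum_le_sum (fun j _ => hci j)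
    rw [Sc] at this
    simp at this
    linarith
  have h1 : b i + c i ≤ 9 * (b i - p) * (c i - q) := by
    rw [E1, Sb, Sc] at I1
    linarith [show 9 * (b i - p) * (c i - q)
      = 9 * (b i * c i) - 9 * (b i * q) - 9 * (c i * p) + 9 * p * q by ring,
      show b i * (1 + 9 * q) = b i + 9 * (b i * q) by ring,
      show c i * (1 + 9 * p) = c i + 9 * (c i * p) by ring]
  have h2 : 9 * (b i + c i - (p + q)) ^ 2 ≤ 12 + 4 * (b i + c i) - 36 * (p + q) := by
    have h := I2 ((2 + 9 * (p + q) - (b i + c i)) / 8)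
    rw [E2, Sb, Sc] at h
    have e : 12 + 4 * (b i + c i) - 36 * (p + q) - 9 * (b i + c i - (p + q)) ^ 2
        = 8 * ((1 + 9 * p ^ 2) + (1 + 9 * q ^ 2) + 2 * (9 * p * q)
        - 2 * ((2 + 9 * (p + q) - (b i + c i)) / 8) * ((1 + 9 * p) + (1 + 9 * q))
        + 9 * ((2 + 9 * (p + q) - (b i + c i)) / 8) ^ 2
        - (b i + c i - (2 + 9 * (p + q) - (b i + c i)) / 8) ^ 2) := by ring
    linarith
  obtain ⟨eb, ec, ep, eq⟩ := scalar_eq (b i) (c i) p q hb1 hc1 hp hq hbp hcq (I0.trans Sbc) h1 h2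
  refine ⟨ep, eq, eb, ec, ?_⟩
  intro j hj
  have hj' : j ∈ univ.erase i := by simp [hj]
  have F1 : b j * c j ≤ 0 := by
    have a1 := Finset.single_le_sum (f := fun j => b j * c j) (s := univ.erase i)
      (fun j _ => mul_nonneg (hb j) (hc j)) hj'
    have a2 := Finset.sum_erase_add (f := fun j => b j * c j) univ (mem_univ i)
    rw [ep, eq] at Sbc
    rw [eb, ec] at a2
    linarith
  have F2 : (b j + c j - 1 / 2) ^ 2 ≤ 0 := by
    have a1 := Finset.single_le_sum (f := fun j => (b j + c j - 1 / 2) ^ 2) (s := univ.erase i)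
      (fun j _ => sq_nonneg _) hj'
    have a2 := Finset.sum_erase_add (f := fun j => (b j + c j - 1 / 2) ^ 2) univ (mem_univ i)
    rw [E2, eb, ec, Sb, Sc, ep, eq] at a2
    rw [ep, eq] at Sbc
    rw [ep] at Sb2
    rw [eq] at Sc2
    linarith
  have F2' := pow_eq_zero_iff (two_ne_zero) |>.1 (le_antisymm F2 (sq_nonneg _))
  exact ⟨by linarith, le_antisymm F1 (mul_nonneg (hb j) (hc j))⟩

theorem sum_xp (S : Finset (Fin 9)) : ∑ j, xp S j = (S.card : ℝ) / 2 - 3 / 2 := by
  have : ∀ j ∈ (univ : Finset (Fin 9)), xp S j = (if j ∈ S then (1 / 2 : ℝ) else 0) - 1 / 6 := by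
    intro j _
    unfold xp
    split_ifs <;> norm_num
  rw [Finset.sum_congr rfl this, Finset.sum_sub_distrib, Finset.sum_ite_mem]
  simp
  ring

theorem pair_eq (y z : Fin 9 → ℝ) (hy : Pt y) (hz : Pt z) (i : Fin 9)
    (hyi : ∀ k, y k ≤ y i) (hzi : ∀ k, z k ≤ z i) (h : 2 ≤ qd y z) :
    ∃ S T : Finset (Fin 9), S.card = 5 ∧ T.card = 5 ∧ S ∩ T = {i} ∧ y = xp S ∧ z = xp T := by
  obtain ⟨p, hp, hyp, hy2, hy1⟩ := shift_aux y hy i
  obtain ⟨q, hq, hzq, hz2, hz1⟩ := shift_aux z hz i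
  have Sb : ∑ j, (y j + p) = 1 + 9 * p := by
    rw [Finset.sum_add_distrib, hy.1]; simp
  have Sc : ∑ j, (z j + q) = 1 + 9 * q := by
    rw [Finset.sum_add_distrib, hz.1]; simp
  have Sb2 : ∑ j, (y j + p) ^ 2 ≤ 1 + 9 * p ^ 2 := by
    have : ∀ j ∈ (univ : Finset (Fin 9)), (y j + p) ^ 2 = y j ^ 2 + 2 * p * y j + p ^ 2 :=
      fun j _ => by ring
    rw [Finset.sum_congr rfl this, Finset.sum_add_distrib, Finset.sum_add_distrib,
      ← Finset.mul_sum, hy.1]
    simp
    linarith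
  have Sc2 : ∑ j, (z j + q) ^ 2 ≤ 1 + 9 * q ^ 2 := by
    have : ∀ j ∈ (univ : Finset (Fin 9)), (z j + q) ^ 2 = z j ^ 2 + 2 * q * z j + q ^ 2 :=
      fun j _ => by ring
    rw [Finset.sum_congr rfl this, Finset.sum_add_distrib, Finset.sum_add_distrib,
      ← Finset.mul_sum, hz.1]
    simp
    linarith
  have Sbc : ∑ j, (y j + p) * (z j + q) ≤ 9 * p * q := by
    have e1 : ∑ j, (y j + p) * (z j + q) = ∑ j, y j * z j + q + p + 9 * (p * q) := by
      have : ∀ j ∈ (univ : Finset (Fin 9)), (y j + p) * (z j + q)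
          = y j * z j + q * y j + p * z j + p * q := fun j _ => by ring
      rw [Finset.sum_congr rfl this, Finset.sum_add_distrib, Finset.sum_add_distrib,
        Finset.sum_add_distrib, ← Finset.mul_sum, ← Finset.mul_sum, hy.1, hz.1]
      simp
    have e2 : qd y z = ∑ j, y j ^ 2 + ∑ j, z j ^ 2 - 2 * ∑ j, y j * z j := by
      unfold qd
      have : ∀ j ∈ (univ : Finset (Fin 9)), (y j - z j) ^ 2
          = y j ^ 2 + z j ^ 2 - 2 * (y j * z j) := fun j _ => by ring
      rw [Finset.sum_congr rfl this, Finset.sum_sub_distrib, Finset.sum_add_distrib,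
        ← Finset.mul_sum]
    linarith [show 9 * p * q = 9 * (p * q) by ring]
  obtain ⟨ep, eq, eb, ec, hrest⟩ := pair_num (fun j => y j + p) (fun j => z j + q) p q i hyp hzq
    (fun k => by simpa using hyi k) (fun k => by simpa using hzi k) hy1 hz1 hp hq Sb Sc Sb2 Sc2 Sbc
  have hyv : ∀ j, y j = 1 / 3 ∨ y j = -(1 / 6) := by
    intro j
    by_cases hj : j = i
    · left; rw [hj]; linarith
    · obtain ⟨h3, h4⟩ := hrest j hj
      rcases mul_eq_zero.1 h4 with h5 | h5
      · right; linarith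
      · left; linarith
  have hzv : ∀ j, z j = 1 / 3 ∨ z j = -(1 / 6) := by
    intro j
    by_cases hj : j = i
    · left; rw [hj]; linarith
    · obtain ⟨h3, h4⟩ := hrest j hj
      rcases mul_eq_zero.1 h4 with h5 | h5
      · left; linarith
      · right; linarith
  have hys : y = xp (univ.filter (fun j => y j = 1 / 3)) := by
    funext j
    unfold xp
    rcases hyv j with h5 | h5
    · rw [if_pos (by simp [h5]), h5]
    · rw [if_neg, h5]
      simp only [mem_filter, mem_univ, true_and, h5]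
      norm_num
  have hzs : z = xp (univ.filter (fun j => z j = 1 / 3)) := by
    funext j
    unfold xp
    rcases hzv j with h5 | h5
    · rw [if_pos (by simp [h5]), h5]
    · rw [if_neg, h5]
      simp only [mem_filter, mem_univ, true_and, h5]
      norm_num
  refine ⟨univ.filter (fun j => y j = 1 / 3), univ.filter (fun j => z j = 1 / 3), ?_, ?_, ?_,
    hys, hzs⟩
  · have h6 := hy.1
    rw [hys, sum_xp] at h6
    have h7 : ((univ.filter (fun j => y j = 1 / 3)).card : ℝ) = 5 := by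
      have := h6
      linarith
    exact_mod_cast h7
  · have h6 := hz.1
    rw [hzs, sum_xp] at h6
    have h7 : ((univ.filter (fun j => z j = 1 / 3)).card : ℝ) = 5 := by
      linarith
    exact_mod_cast h7
  · ext j
    simp only [mem_inter, mem_filter, mem_univ, true_and, mem_singleton]
    constructor
    · rintro ⟨h6, h7⟩
      by_contra hj
      obtain ⟨h3, -⟩ := hrest j hj
      linarith
    · rintro rfl
      constructor <;> linarith

end Vale.Agent.P052.H629
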